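import Vale.Agent.P298.H39.RelDefs

/-!
# P298, block S1-GEO, row R1: calculus in charts for lifts and relative forms
-/

open scoped ContDiff Topology Manifold
open Vale.Agent.P272.K
open Vale.Agent.P298.H39

set_option maxSynthPendingDepth 3

noncomputable section

namespace Vale.Agent.P298.H365.R1

/-- space of chart coordinates -/
abbrev E : Type := Cm 2 × ℂ

/-- the vector field over the direction `s` -/
def V (v : E → Cm 2) (s : ℂ) (q : E) : E := (s • v q, s)

/-- vertical component of the commutator of `V 1` and `V I` -/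
def X (v : E → Cm 2) (q : E) : Cm 2 :=
  Complex.I • fderiv ℝ v q (v q, 1) - fderiv ℝ v q (Complex.I • v q, Complex.I)

section
variable {G : Type*} [NormedAddCommGroup G] [NormedSpace ℝ G]

lemma cd_fderiv {f : E → G} {q : E} (hf : ContDiffAt ℝ ∞ f q) : ContDiffAt ℝ ∞ (fderiv ℝ f) q :=
  hf.fderiv_right (by simp)

lemma cd_diff {f : E → G} {q : E} (hf : ContDiffAt ℝ ∞ f q) : DifferentiableAt ℝ f q :=
  hf.differentiableAt (by simp)

lemma snd_symm {f : E → G} {q : E} (hf : ContDiffAt ℝ ∞ f q) (a b : E) :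
    fderiv ℝ (fderiv ℝ f) q a b = fderiv ℝ (fderiv ℝ f) q b a := by
  have h : IsSymmSndFDerivAt ℝ f q := by
    refine hf.isSymmSndFDerivAt ?_
    simp only [minSmoothness_of_isRCLikeNormedField]
    exact WithTop.coe_le_coe.2 le_top
  exact h a b

end

lemma cd_V {v : E → Cm 2} {q : E} (s : ℂ) (hv : ContDiffAt ℝ ∞ v q) :
    ContDiffAt ℝ ∞ (V v s) q := (hv.const_smul s : ContDiffAt ℝ ∞ (fun q => s • v q) q).prodMk contDiffAt_const

lemma fderiv_V {v : E → Cm 2} {q : E} (s : ℂ) (hv : ContDiffAt ℝ ∞ v q) (w : E) :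
    fderiv ℝ (V v s) q w = (s • fderiv ℝ v q w, 0) := by
  have h1 : HasFDerivAt (fun q => s • v q) (s • fderiv ℝ v q) q :=
    (cd_diff hv).hasFDerivAt.const_smul s
  have h2 : HasFDerivAt (V v s) ((s • fderiv ℝ v q).prod (0 : E →L[ℝ] ℂ)) q :=
    h1.prodMk (hasFDerivAt_const s q)
  rw [h2.fderiv]
  rfl

/-- derivative of an application -/
lemma fderiv_app {G H : Type*} [NormedAddCommGroup G] [NormedSpace ℝ G] [NormedAddCommGroup H]
    [NormedSpace ℝ H] {c : E → G →L[ℝ] H} {g : E → G} {q : E} (hc : DifferentiableAt ℝ c q)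
    (hg : DifferentiableAt ℝ g q) (w : E) :
    fderiv ℝ (fun q => c q (g q)) q w = fderiv ℝ c q w (g q) + c q (fderiv ℝ g q w) := by
  rw [fderiv_clm_apply hc hg]
  simp [add_comm]

section lie
variable {v : E → Cm 2} {α : E → BF} {q : E}

lemma cd_lieB (s : ℂ) (hv : ContDiffAt ℝ ∞ v q) (hα : ContDiffAt ℝ ∞ α q) :
    ContDiffAt ℝ ∞ (lieB v s α) q := by
  have h1 : ContDiffAt ℝ ∞ (fun q => fderiv ℝ α q (V v s q)) q :=
    (cd_fderiv hα).clm_apply (cd_V s hv)
  have hB : ContDiffAt ℝ ∞ (fun q => s • dfv v q) q :=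
    by
    have h0 : ContDiffAt ℝ ∞ (dfv v) q := (cd_fderiv hv).clm_comp contDiffAt_const
    exact h0.const_smul s
  have h2 : ContDiffAt ℝ ∞ (fun q => (α q).comp (s • dfv v q)) q := hα.clm_comp hB
  have h3 : ContDiffAt ℝ ∞ (fun q =>
      ((ContinuousLinearMap.compL ℝ (Cm 2) (Cm 2) ℂ).flip (s • dfv v q)).comp (α q)) q :=
    (((ContinuousLinearMap.compL ℝ (Cm 2) (Cm 2) ℂ).flip.contDiff.contDiffAt).comp q hB).clm_comp hα
  exact h1.add (h2.add h3)

/-- the derivative of a Lie derivative -/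
lemma fderiv_lieB (s : ℂ) (hv : ContDiffAt ℝ ∞ v q) (hα : ContDiffAt ℝ ∞ α q) (w : E)
    (u x : Cm 2) :
    fderiv ℝ (lieB v s α) q w u x =
      fderiv ℝ (fderiv ℝ α) q w (V v s q) u x + fderiv ℝ α q (s • fderiv ℝ v q w, 0) u x +
      (fderiv ℝ α q w (s • fderiv ℝ v q (u, 0)) x +
        α q (s • fderiv ℝ (fderiv ℝ v) q w (u, 0)) x) +
      (fderiv ℝ α q w u (s • fderiv ℝ v q (x, 0)) +
        α q u (s • fderiv ℝ (fderiv ℝ v) q w (x, 0))) := by
  have hd := cd_diff (cd_lieB s hv hα)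
  have e1 : fderiv ℝ (fun q => lieB v s α q u x) q w = fderiv ℝ (lieB v s α) q w u x := by
    have h1 : DifferentiableAt ℝ (fun q => lieB v s α q u) q := hd.clm_apply
      (differentiableAt_const u)
    rw [fderiv_app h1 (differentiableAt_const x), fderiv_app hd (differentiableAt_const u)]
    simp
  rw [← e1]
  have hα1 := cd_diff hα
  have hα2 := cd_diff (cd_fderiv hα)
  have hv2 := cd_diff (cd_fderiv hv)
  have hVd := cd_diff (cd_V s hv)
  have hg : ∀ y : Cm 2, DifferentiableAt ℝ (fun q => s • fderiv ℝ v q (y, 0)) q := fun y =>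
    (hv2.clm_apply (differentiableAt_const _)).const_smul s
  have hg' : ∀ y : Cm 2, fderiv ℝ (fun q => s • fderiv ℝ v q (y, 0)) q w =
      s • fderiv ℝ (fderiv ℝ v) q w (y, 0) := by
    intro y
    rw [fderiv_fun_const_smul (hv2.clm_apply (differentiableAt_const _))]
    show s • fderiv ℝ (fun q => fderiv ℝ v q (y, 0)) q w = _
    rw [fderiv_app hv2 (differentiableAt_const _)]
    simp
  have e2 : (fun q => lieB v s α q u x) = fun q => fderiv ℝ α q (V v s q) u x +
      α q (s • fderiv ℝ v q (u, 0)) x + α q u (s • fderiv ℝ v q (x, 0)) := by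
    funext q
    rw [lieB_apply]
    rfl
  rw [e2]
  have d1 : DifferentiableAt ℝ (fun q => fderiv ℝ α q (V v s q)) q := hα2.clm_apply hVd
  have d2 : DifferentiableAt ℝ (fun q => fderiv ℝ α q (V v s q) u) q :=
    d1.clm_apply (differentiableAt_const u)
  have d3 : DifferentiableAt ℝ (fun q => fderiv ℝ α q (V v s q) u x) q :=
    d2.clm_apply (differentiableAt_const x)
  have d4 : DifferentiableAt ℝ (fun q => α q (s • fderiv ℝ v q (u, 0))) q :=
    hα1.clm_apply (hg u)
  have d5 : DifferentiableAt ℝ (fun q => α q (s • fderiv ℝ v q (u, 0)) x) q :=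
    d4.clm_apply (differentiableAt_const x)
  have d6 : DifferentiableAt ℝ (fun q => α q u) q := hα1.clm_apply (differentiableAt_const u)
  have d7 : DifferentiableAt ℝ (fun q => α q u (s • fderiv ℝ v q (x, 0))) q :=
    d6.clm_apply (hg x)
  have e3 : fderiv ℝ (fun q => fderiv ℝ α q (V v s q) u x +
      α q (s • fderiv ℝ v q (u, 0)) x + α q u (s • fderiv ℝ v q (x, 0))) q w =
      fderiv ℝ (fun q => fderiv ℝ α q (V v s q) u x) q w +
      fderiv ℝ (fun q => α q (s • fderiv ℝ v q (u, 0)) x) q w +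
      fderiv ℝ (fun q => α q u (s • fderiv ℝ v q (x, 0))) q w := by
    have h := ((d3.hasFDerivAt.add d5.hasFDerivAt).add d7.hasFDerivAt).fderiv
    exact congrArg (fun L : E →L[ℝ] ℂ => L w) h
  rw [e3]
  rw [fderiv_app d2 (differentiableAt_const x), fderiv_app d1 (differentiableAt_const u),
    fderiv_app hα2 hVd, fderiv_V s hv, fderiv_app d4 (differentiableAt_const x),
    fderiv_app hα1 (hg u), hg' u, fderiv_app d6 (hg x), fderiv_app hα1 (differentiableAt_const u),
    hg' x]
  simp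

end lie

end Vale.Agent.P298.H365.R1
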