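import Vale.Agent.P298.H365.R1Nat0

/-!
# P298, block S1-GEO, row R1-FLAT: the commutator of Lie derivatives of a closed form is exact
-/

open scoped ContDiff Topology Manifold
open Vale.Agent.P272.K
open Vale.Agent.P298.H39

set_option maxSynthPendingDepth 3

noncomputable section

namespace Vale.Agent.P298.H365.R1

variable {v : E → Cm 2} {α : E → BF} {q : E}

lemma cd_X (hv : ContDiffAt ℝ ∞ v q) : ContDiffAt ℝ ∞ (X v) q := by
  have h1 : ContDiffAt ℝ ∞ (fun q => fderiv ℝ v q (v q, 1)) q :=
    (cd_fderiv hv).clm_apply (hv.prodMk contDiffAt_const)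
  have h2 : ContDiffAt ℝ ∞ (fun q => fderiv ℝ v q (Complex.I • v q, Complex.I)) q :=
    (cd_fderiv hv).clm_apply ((hv.const_smul Complex.I).prodMk contDiffAt_const)
  exact (h1.const_smul Complex.I).sub h2

lemma fderiv_X (hv : ContDiffAt ℝ ∞ v q) (w : E) :
    fderiv ℝ (X v) q w =
      Complex.I • (fderiv ℝ (fderiv ℝ v) q w (v q, 1) + fderiv ℝ v q (fderiv ℝ v q w, 0)) -
      (fderiv ℝ (fderiv ℝ v) q w (Complex.I • v q, Complex.I) +
        fderiv ℝ v q (Complex.I • fderiv ℝ v q w, 0)) := by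
  have hv2 := cd_diff (cd_fderiv hv)
  have e0 : ∀ s : ℂ, fderiv ℝ (fun q => fderiv ℝ v q (V v s q)) q w =
      fderiv ℝ (fderiv ℝ v) q w (V v s q) + fderiv ℝ v q (s • fderiv ℝ v q w, 0) := by
    intro s
    rw [fderiv_app hv2 (cd_diff (cd_V s hv)), fderiv_V s hv]
  have hd : ∀ s : ℂ, DifferentiableAt ℝ (fun q => fderiv ℝ v q (V v s q)) q := fun s =>
    hv2.clm_apply (cd_diff (cd_V s hv))
  have e1 : X v = fun q => Complex.I • fderiv ℝ v q (V v 1 q) - fderiv ℝ v q (V v Complex.I q) := by
    funext q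
    simp [X, V]
  have h := (((hd 1).hasFDerivAt.const_smul Complex.I).sub (hd Complex.I).hasFDerivAt).fderiv
  have h' : fderiv ℝ (X v) q w = Complex.I • fderiv ℝ (fun q => fderiv ℝ v q (V v 1 q)) q w -
      fderiv ℝ (fun q => fderiv ℝ v q (V v Complex.I q)) q w := by
    rw [e1]
    exact congrArg (fun L : E →L[ℝ] Cm 2 => L w) h
  rw [h', e0, e0]
  simp [V]

/-- the identity in a chart -/
lemma flat_chart (hv : ContDiffAt ℝ ∞ v q) (hα : ContDiffAt ℝ ∞ α q)
    (halt : ∀ u x, α q u x = -α q x u) (hdalt : ∀ w u x, fderiv ℝ α q w u x = -fderiv ℝ α q w x u)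
    (hcl : ∀ u v x : Cm 2,
      fderiv ℝ α q (u, 0) v x - fderiv ℝ α q (v, 0) u x + fderiv ℝ α q (x, 0) u v = 0)
    (u x : Cm 2) :
    lieB v 1 (lieB v Complex.I α) q u x - lieB v Complex.I (lieB v 1 α) q u x =
      d1 (fun q => α q (X v q)) q u x := by
  have e1 : ∀ w y, fderiv ℝ (fun q => α q (X v q)) q w y =
      fderiv ℝ α q w (X v q) y + α q (fderiv ℝ (X v) q w) y := by
    intro w y
    rw [fderiv_app (cd_diff hα) (cd_diff (cd_X hv))]
    rfl
  rw [d1, e1, e1, fderiv_X hv, fderiv_X hv]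
  rw [lieB_apply, lieB_apply, lie, lie]
  have hV : ∀ s : ℂ, ((s • v q, s) : E) = V v s q := fun s => rfl
  have hV1 : ((v q, 1) : E) = V v 1 q := by simp [V]
  simp only [hV, hV1]
  rw [fderiv_lieB Complex.I hv hα, fderiv_lieB 1 hv hα]
  simp only [lieB_apply, lie, hV]
  have s1 := snd_symm hα (V v 1 q) (V v Complex.I q)
  have s2 : ∀ (s : ℂ) (y : Cm 2), fderiv ℝ (fderiv ℝ v) q (V v s q) (y, 0) =
      fderiv ℝ (fderiv ℝ v) q (y, 0) (V v s q) := fun s y => snd_symm hv _ _
  rw [s1]
  simp only [s2, one_smul]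
  have c1 := hcl u (X v q) x
  have c2 := hdalt (x, 0) (X v q) u
  have c3 : fderiv ℝ α q (X v q, 0) u x =
      fderiv ℝ α q (Complex.I • fderiv ℝ v q (V v 1 q), 0) u x -
        fderiv ℝ α q (fderiv ℝ v q (V v Complex.I q), 0) u x := by
    have : ((X v q, 0) : E) = (Complex.I • fderiv ℝ v q (V v 1 q), 0) -
      (fderiv ℝ v q (V v Complex.I q), 0) := by
      simp [X, V]
    rw [this]
    simp only [map_sub]
    rfl
  simp only [smul_add, map_add, map_sub, _root_.add_apply, _root_.sub_apply]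
  have c4 := halt (Complex.I • fderiv ℝ (fderiv ℝ v) q (x, 0) (V v 1 q)) u
  have c5 := halt (fderiv ℝ (fderiv ℝ v) q (x, 0) (V v Complex.I q)) u
  have c6 := halt (Complex.I • fderiv ℝ v q (fderiv ℝ v q (x, 0), 0)) u
  have c7 := halt (fderiv ℝ v q (Complex.I • fderiv ℝ v q (x, 0), 0)) u
  linear_combination -c3 - c1 + c2 + c4 - c5 + c6 - c7

theorem r1Flat {Z : Type} [TopologicalSpace Z] (F : Fam Z) : R1Flat F := by
  intro v α hv hα hcl
  refine ⟨fun e q => α e q (X (v e) q), ⟨?_, ?_⟩, ?_⟩
  · intro e he q hq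
    exact (hα.smooth e he q hq).clm_apply (cd_X (hv.smooth e he q hq))
  · intro e he e' he' z hz hz' u
    have htr : Tr (fun q => e' (e.symm q)) (v e) (v e') (e.target ∩ e.symm ⁻¹' e'.source) := by
      have hsm : ∀ q ∈ e.target ∩ e.symm ⁻¹' e'.source,
          ContDiffAt ℂ ω (fun q => e' (e.symm q)) q := by
        intro q hq
        have := F.trans e he e' he' (e.symm q) (e.map_target hq.1) hq.2
        rwa [e.right_inv hq.1] at this
      refine ⟨e.symm.isOpen_inter_preimage e'.open_source, ?_, ?_, ?_, ?_, ?_, ?_⟩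
      · intro q hq
        exact ((hsm q hq).restrict_scalars ℝ).of_le le_top
      · intro q hq c y
        have hd : DifferentiableAt ℂ (fun q => e' (e.symm q)) q :=
          (hsm q hq).differentiableAt (by simp)
        rw [hd.fderiv_restrictScalars ℝ]
        exact map_smul (fderiv ℂ (fun q => e' (e.symm q)) q) c y
      · intro q hq
        have hz := e.map_target hq.1
        show (e' (e.symm q)).2 = q.2
        rw [F.chart_p e' he' _ hq.2, ← F.chart_p e he _ hz, e.right_inv hq.1]
      · intro q hq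
        exact hv.smooth e he q hq.1
      · intro q hq
        exact hv.smooth e' he' _ (e'.map_source hq.2)
      · intro q hq
        have := hv.change e he e' he' (e.symm q) (e.map_target hq.1) hq.2
        rw [tj, e.right_inv hq.1] at this
        exact this
    have hq : e z ∈ e.target ∩ e.symm ⁻¹' e'.source := by
      refine ⟨e.map_source hz, ?_⟩
      show e.symm (e z) ∈ e'.source
      rwa [e.left_inv hz]
    have h1 := htr.natX hq
    have h2 : fj e e' z (X (v e) (e z)) = X (v e') (e' z) := by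
      have : fj e e' z (X (v e) (e z)) = J (fun q => e' (e.symm q)) (e z) (X (v e) (e z)) := rfl
      rw [this, h1]
      show X (v e') (e' (e.symm (e z))) = _
      rw [e.left_inv hz]
    show α e (e z) (X (v e) (e z)) u = α e' (e' z) (X (v e') (e' z)) (fj e e' z u)
    rw [hα.change e he e' he' z hz hz', h2]
  · intro e he q hq u x
    have ho : e.target ∈ 𝓝 q := e.open_target.mem_nhds hq
    refine flat_chart (hv.smooth e he q hq) (hα.smooth e he q hq) (hα.alt e he q hq) ?_
      (hcl e he q hq) u x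
    intro w u x
    have hd := cd_diff (hα.smooth e he q hq)
    have key : ∀ a b : Cm 2, fderiv ℝ (fun q => α e q a b) q w = fderiv ℝ (α e) q w a b := by
      intro a b
      have h1 : DifferentiableAt ℝ (fun q => α e q a) q := hd.clm_apply (differentiableAt_const a)
      rw [fderiv_app h1 (differentiableAt_const b), fderiv_app hd (differentiableAt_const a)]
      simp
    rw [← key, ← key]
    have e1 : (fun q => α e q u x) =ᶠ[𝓝 q] fun q => -α e q x u := by
      filter_upwards [ho] with q' hq'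
      exact hα.alt e he q' hq' u x
    rw [e1.fderiv_eq, fderiv_fun_neg]
    rfl

end Vale.Agent.P298.H365.R1
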