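import Vale.Agent.P298.H365.R1Calc

/-!
# P298, block S1-GEO, row R1: naturality of lifts under a change of product charts
-/

open scoped ContDiff Topology Manifold
open Vale.Agent.P272.K
open Vale.Agent.P298.H39

set_option maxSynthPendingDepth 3

noncomputable section

namespace Vale.Agent.P298.H365.R1

/-- a change of product charts and two lifts corresponding to each other -/
structure Tr (T : E → E) (v v' : E → Cm 2) (U : Set E) : Prop where
  op : IsOpen U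
  smT : ∀ q ∈ U, ContDiffAt ℝ ∞ T q
  lin : ∀ q ∈ U, ∀ (c : ℂ) (y : E), fderiv ℝ T q (c • y) = c • fderiv ℝ T q y
  snd : ∀ q ∈ U, (T q).2 = q.2
  smv : ∀ q ∈ U, ContDiffAt ℝ ∞ v q
  smv' : ∀ q ∈ U, ContDiffAt ℝ ∞ v' (T q)
  eq : ∀ q ∈ U, fderiv ℝ T q (v q, 1) = (v' (T q), 1)

variable {T : E → E} {v v' : E → Cm 2} {U : Set E} {q : E}

lemma Tr.natV (h : Tr T v v' U) (hq : q ∈ U) (s : ℂ) :
    fderiv ℝ T q (V v s q) = V v' s (T q) := by
  have e1 : V v s q = s • ((v q, 1) : E) := by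
    simp [V]
  rw [e1, h.lin q hq, h.eq q hq]
  simp [V]

lemma fderiv_comp_T {G : Type*} [NormedAddCommGroup G] [NormedSpace ℝ G] {g : E → G}
    (hg : ContDiffAt ℝ ∞ g (T q)) (hT : ContDiffAt ℝ ∞ T q) (w : E) :
    fderiv ℝ (fun q => g (T q)) q w = fderiv ℝ g (T q) (fderiv ℝ T q w) := by
  have h := ((cd_diff hg).hasFDerivAt.comp q (cd_diff hT).hasFDerivAt).fderiv
  exact congrArg (fun L : E →L[ℝ] G => L w) h

lemma Tr.natD (h : Tr T v v' U) (hq : q ∈ U) (s : ℂ) (y : E) :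
    fderiv ℝ (fderiv ℝ T) q y (V v s q) + fderiv ℝ T q (s • fderiv ℝ v q y, 0) =
      (s • fderiv ℝ v' (T q) (fderiv ℝ T q y), 0) := by
  have e1 : (fun q => fderiv ℝ T q (V v s q)) =ᶠ[𝓝 q] fun q => V v' s (T q) := by
    filter_upwards [h.op.mem_nhds hq] with q' hq'
    exact h.natV hq' s
  have e2 := congrArg (fun L : E →L[ℝ] E => L y) e1.fderiv_eq
  rw [fderiv_app (cd_diff (cd_fderiv (h.smT q hq))) (cd_diff (cd_V s (h.smv q hq))),
    fderiv_V s (h.smv q hq), fderiv_comp_T (cd_V s (h.smv' q hq)) (h.smT q hq),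
    fderiv_V s (h.smv' q hq)] at e2
  exact e2

lemma Tr.snd1 (h : Tr T v v' U) (hq : q ∈ U) (y : E) : (fderiv ℝ T q y).2 = y.2 := by
  have e1 : (fun q => (T q).2) =ᶠ[𝓝 q] fun q => q.2 := by
    filter_upwards [h.op.mem_nhds hq] with q' hq'
    exact h.snd q' hq'
  have e2 := congrArg (fun L : E →L[ℝ] ℂ => L y) e1.fderiv_eq
  have h3 : HasFDerivAt (fun q => (T q).2) ((ContinuousLinearMap.snd ℝ (Cm 2) ℂ).comp
      (fderiv ℝ T q)) q := (cd_diff (h.smT q hq)).hasFDerivAt.snd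
  have h4 : HasFDerivAt (fun q : E => q.2) (ContinuousLinearMap.snd ℝ (Cm 2) ℂ) q :=
    hasFDerivAt_snd
  rw [h3.fderiv, h4.fderiv] at e2
  exact e2

lemma Tr.snd2 (h : Tr T v v' U) (hq : q ∈ U) (a y : E) :
    (fderiv ℝ (fderiv ℝ T) q a y).2 = 0 := by
  have e1 : (fun q => (fderiv ℝ T q y).2) =ᶠ[𝓝 q] fun _ => y.2 := by
    filter_upwards [h.op.mem_nhds hq] with q' hq'
    exact h.snd1 hq' y
  have e2 := congrArg (fun L : E →L[ℝ] ℂ => L a) e1.fderiv_eq
  have hd : DifferentiableAt ℝ (fun q => fderiv ℝ T q y) q :=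
    (cd_diff (cd_fderiv (h.smT q hq))).clm_apply (differentiableAt_const y)
  have h3 : HasFDerivAt (fun q => (fderiv ℝ T q y).2) ((ContinuousLinearMap.snd ℝ (Cm 2) ℂ).comp
      (fderiv ℝ (fun q => fderiv ℝ T q y) q)) q := hd.hasFDerivAt.snd
  rw [h3.fderiv] at e2
  have e3 : fderiv ℝ (fun q => fderiv ℝ T q y) q a = fderiv ℝ (fderiv ℝ T) q a y := by
    rw [fderiv_app (cd_diff (cd_fderiv (h.smT q hq))) (differentiableAt_const y)]
    simp
  have e4 : (fderiv ℝ (fun q => fderiv ℝ T q y) q a).2 = 0 := by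
    have := e2
    simpa using this
  rw [e3] at e4
  exact e4

/-- the vertical Jacobian -/
def J (T : E → E) (q : E) (u : Cm 2) : Cm 2 := (fderiv ℝ T q (u, 0)).1

lemma Tr.mkJ (h : Tr T v v' U) (hq : q ∈ U) (u : Cm 2) :
    fderiv ℝ T q (u, 0) = (J T q u, 0) :=
  Prod.ext rfl (h.snd1 hq _)

/-- the bracket is natural -/
lemma Tr.natX (h : Tr T v v' U) (hq : q ∈ U) : J T q (X v q) = X v' (T q) := by
  have e1 := h.natD hq Complex.I (V v 1 q)
  have e2 := h.natD hq 1 (V v Complex.I q)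
  rw [h.natV hq] at e1 e2
  have e3 := snd_symm (h.smT q hq) (V v 1 q) (V v Complex.I q)
  have hX : ((X v q, 0) : E) = (Complex.I • fderiv ℝ v q (V v 1 q), 0) -
      ((1 : ℂ) • fderiv ℝ v q (V v Complex.I q), 0) := by
    simp [X, V]
  have h5 : fderiv ℝ T q (X v q, 0) = (X v' (T q), 0) := by
    rw [hX, map_sub]
    have e4 : fderiv ℝ T q (Complex.I • fderiv ℝ v q (V v 1 q), 0) =
        (Complex.I • fderiv ℝ v' (T q) (V v' 1 (T q)), 0) -
          fderiv ℝ (fderiv ℝ T) q (V v 1 q) (V v Complex.I q) := by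
      rw [← e1]; abel
    have e5 : fderiv ℝ T q ((1 : ℂ) • fderiv ℝ v q (V v Complex.I q), 0) =
        ((1 : ℂ) • fderiv ℝ v' (T q) (V v' Complex.I (T q)), 0) -
          fderiv ℝ (fderiv ℝ T) q (V v Complex.I q) (V v 1 q) := by
      rw [← e2]; abel
    rw [e4, e5, e3]
    simp [X, V]
  rw [J, h5]

end Vale.Agent.P298.H365.R1
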